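import Vale.Agent.Lib.P343.Main

namespace Vale.Agent.Results.P343.LinearReversals

open Vale.Agent.P343

/-- For every `n` there is a one-way nondeterministic automaton `N` with `n + 3` states such that
every two-way nondeterministic automaton `M` with fewer than `2 ^ ((n - 1) / 6)` states that
recognizes the complement of `N.language` makes linearly many reversals: for some `c > 0` and all
large `l` there is a word of length `l` recognized by `M` all of whose accepting computations
make at least `c * l` reversals. -/
theorem result (n : ℕ) :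
    ∃ (A P : Type) (_ : Fintype A) (_ : Fintype P) (N : TwoNFA A P),
      Fintype.card P = n + 3 ∧ N.OneWay ∧
      ∀ (Q : Type) (_ : Fintype Q) (M : TwoNFA A Q),
        M.language = N.languageᶜ → 2 * Fintype.card Q ^ 6 < 2 ^ n →
          ∃ c : ℝ, 0 < c ∧ ∃ l₀ : ℕ, ∀ l : ℕ, l₀ ≤ l →
            ∃ w : List A, w.length = l ∧ w ∈ M.language ∧
              ∀ ds, M.AcceptsWith w ds → c * l ≤ reversals ds := by
  refine ⟨Letter n, St n, inferInstance, inferInstance, auto n, card_St n, auto_oneWay n, ?_⟩
  intro Q _ M hL hQ
  obtain ⟨c, hc, hev⟩ := tradeoff M hL hQ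
  obtain ⟨l₀, hl₀⟩ := Filter.eventually_atTop.mp hev
  exact ⟨c, hc, l₀, hl₀⟩

end Vale.Agent.Results.P343.LinearReversals
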