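import Vale.Agent.Lib.P343.UnaryMain

namespace Vale.Agent.Results.P343.QuadraticUnary

open Vale.Agent.P343

/-- For every `n` there is a one-way nondeterministic automaton `N` with `n + 2` states over a
one-letter alphabet such that every two-way nondeterministic automaton that recognizes the
complement of `N.language` has more than `n ^ 2` states. -/
theorem result (n : ℕ) :
    ∃ (P : Type) (_ : Fintype P) (N : TwoNFA Unit P),
      Fintype.card P = n + 2 ∧ N.OneWay ∧
      ∀ (Q : Type) (_ : Fintype Q) (M : TwoNFA Unit Q),
        M.language = N.languageᶜ → n ^ 2 < Fintype.card Q :=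
  ⟨Option (Fin (n + 1)), inferInstance, Unary.wauto n, by simp, Unary.wauto_oneWay n,
    fun _ _ M hL => Unary.quadratic M hL⟩

end Vale.Agent.Results.P343.QuadraticUnary
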