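import Vale.Agent.Lib.P343.D3Bridge
import Vale.Agent.Results.P343.LinearReversals
import Vale.Agent.Results.P343.QuadraticUnary

/-! Lower bounds for complementing two-way nondeterministic automata: reversals or exponentially
many states, and more than quadratically many states without any restriction. -/

namespace Vale.Agent.Results.P343.Complementation

open Vale.Agent.P343 Vale.Agent.P343.D3

open scoped Asymptotics

theorem result (n : ℕ) :
    (∃ (A : Type) (_ : Finite A) (N : Automaton A), N.OneWay ∧ Nat.card N.State = n + 3 ∧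
      ∀ M : Automaton A, M.lang = N.langᶜ →
        (2 ^ n ≤ 2 * Nat.card M.State ^ 6 ∨
          ∃ c : ℝ, 0 < c ∧ ∃ l₀ : ℕ, ∀ l : ℕ, l₀ ≤ l → ∃ w ∈ M.lang, w.length = l ∧
            ∀ T p x, M.Accepts w T p x → c * l ≤ turns T x) ∧
        ∀ r : ℕ → ℕ, (fun l : ℕ => (r l : ℝ)) =o[Filter.atTop] (fun l : ℕ => (l : ℝ)) →
          (∀ w ∈ M.lang, ∃ T p x, M.Accepts w T p x ∧ turns T x ≤ r w.length) →
            2 ^ n ≤ 2 * Nat.card M.State ^ 6) ∧
    (∃ N : Automaton Unit, N.OneWay ∧ Nat.card N.State = n + 2 ∧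
      ∀ M : Automaton Unit, M.lang = N.langᶜ → n ^ 2 < Nat.card M.State) := by
  refine ⟨?_, ?_⟩
  · obtain ⟨A, P, hA, hP, N, hN, hone, hlow⟩ :=
      Vale.Agent.Results.P343.LinearReversals.result n
    have hcard : Nat.card (ofNFA N).State = n + 3 := by
      change Nat.card P = n + 3
      rw [Nat.card_eq_fintype_card, hN]
    refine ⟨A, inferInstance, ofNFA N, oneWay_of hone, hcard, ?_⟩
    intro M hM
    have hfin := M.finite
    have := Fintype.ofFinite M.State
    have hlang : (toNFA M).language = N.languageᶜ := by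
      rw [lang_eq, hM, lang_of]
      rfl
    have main : 2 ^ n ≤ 2 * Nat.card M.State ^ 6 ∨
          ∃ c : ℝ, 0 < c ∧ ∃ l₀ : ℕ, ∀ l : ℕ, l₀ ≤ l → ∃ w ∈ M.lang, w.length = l ∧
            ∀ T p x, M.Accepts w T p x → c * l ≤ turns T x := by
      rw [Nat.card_eq_fintype_card]
      by_cases hlt : 2 * Fintype.card M.State ^ 6 < 2 ^ n
      · right
        obtain ⟨c, hc, l₀, h⟩ := hlow M.State inferInstance (toNFA M) hlang hlt
        refine ⟨c, hc, l₀, fun l hl => ?_⟩
        obtain ⟨w, hwl, hw, hrev⟩ := h l hl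
        refine ⟨w, ?_, hwl, ?_⟩
        · rw [← lang_eq]; exact hw
        · intro T p x hacc
          rw [← turns_eq]
          exact hrev _ (accepts_to hacc)
      · left
        exact not_lt.mp hlt
    refine ⟨main, ?_⟩
    intro r hr hfew
    rcases main with h | ⟨c, hc, l₀, h⟩
    · exact h
    · exfalso
      have h1 := hr.def (half_pos hc)
      obtain ⟨l₁, h2⟩ := Filter.eventually_atTop.mp h1
      obtain ⟨w, hw, hwl, h3⟩ := h (max (max l₀ l₁) 1) (by omega)
      obtain ⟨T, p, x, hacc, hle⟩ := hfew w hw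
      have h4 := h3 T p x hacc
      have h5 := h2 (max (max l₀ l₁) 1) (by omega)
      have h6 : (turns T x : ℝ) ≤ r (max (max l₀ l₁) 1) := by
        rw [hwl] at hle
        exact_mod_cast hle
      have h7 : (1 : ℝ) ≤ ((max (max l₀ l₁) 1 : ℕ) : ℝ) := by
        exact_mod_cast (le_max_right (max l₀ l₁) 1)
      rw [Real.norm_of_nonneg (Nat.cast_nonneg _), Real.norm_of_nonneg (Nat.cast_nonneg _)] at h5
      nlinarith
  · obtain ⟨P, hP, N, hN, hone, hlow⟩ := Vale.Agent.Results.P343.QuadraticUnary.result n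
    refine ⟨ofNFA N, oneWay_of hone, ?_, ?_⟩
    · change Nat.card P = n + 2
      rw [Nat.card_eq_fintype_card, hN]
    · intro M hM
      have hfin := M.finite
      have := Fintype.ofFinite M.State
      rw [Nat.card_eq_fintype_card]
      refine hlow M.State inferInstance (toNFA M) ?_
      rw [lang_eq, hM, lang_of]
      rfl

end Vale.Agent.Results.P343.Complementation
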