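import Vale.Agent.Lib.P343.Main

namespace Vale.Agent.Results.P343.FewReversals

open Vale.Agent.P343

/-- For every `n` there is a one-way nondeterministic automaton `N` with `n + 3` states such that
every two-way nondeterministic automaton with few reversals that recognizes the complement of
`N.language` has at least `2 ^ ((n - 1) / 6)` states. -/
theorem result (n : ℕ) :
    ∃ (A P : Type) (_ : Fintype A) (_ : Fintype P) (N : TwoNFA A P),
      Fintype.card P = n + 3 ∧ N.OneWay ∧
      ∀ (Q : Type) (_ : Fintype Q) (M : TwoNFA A Q),
        M.FewReversals → M.language = N.languageᶜ → 2 ^ n ≤ 2 * Fintype.card Q ^ 6 :=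
  ⟨Letter n, St n, inferInstance, inferInstance, auto n, card_St n, auto_oneWay n,
    fun _ _ M hM hL => lower_bound M hM hL⟩

end Vale.Agent.Results.P343.FewReversals
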